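import Mathlib

namespace Vale.Agent.Lib.P031

/-- `V x` is the number of totient values `v = φ(n)`, `n ≥ 1`, with `v ≤ x`. -/
noncomputable def V (x : ℝ) : ℕ :=
  Set.ncard {v : ℕ | (∃ n : ℕ, 1 ≤ n ∧ Nat.totient n = v) ∧ (v : ℝ) ≤ x}

end Vale.Agent.Lib.P031
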