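import Mathlib
import Vale.Agent.Lib.P031.Defs

open Filter Topology Real

namespace Vale.Agent.Lib.P031

lemma Vset_subset (x : ℝ) :
    {v : ℕ | (∃ n : ℕ, 1 ≤ n ∧ Nat.totient n = v) ∧ (v : ℝ) ≤ x} ⊆ ↑(Finset.Icc 1 ⌊x⌋₊) := by
  rintro v ⟨⟨n, hn, rfl⟩, hv⟩
  simp only [Finset.coe_Icc, Set.mem_Icc]
  exact ⟨Nat.totient_pos.2 hn, Nat.le_floor hv⟩

lemma Vset_finite (x : ℝ) :
    {v : ℕ | (∃ n : ℕ, 1 ≤ n ∧ Nat.totient n = v) ∧ (v : ℝ) ≤ x}.Finite :=
  (Finset.finite_toSet _).subset (Vset_subset x)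

lemma V_mono : Monotone V := by
  intro x y hxy
  apply Set.ncard_le_ncard _ (Vset_finite y)
  rintro v ⟨h1, h2⟩
  exact ⟨h1, h2.trans hxy⟩

lemma V_le_floor (x : ℝ) : V x ≤ ⌊x⌋₊ := by
  have := Set.ncard_le_ncard (Vset_subset x) (Finset.finite_toSet _)
  rw [Set.ncard_coe_finset] at this
  simpa [V] using this

lemma V_le {x : ℝ} (hx : 0 ≤ x) : (V x : ℝ) ≤ x :=
  le_trans (by exact_mod_cast V_le_floor x) (Nat.floor_le hx)

lemma one_le_V {x : ℝ} (hx : 1 ≤ x) : 1 ≤ V x := by
  rw [Nat.one_le_iff_ne_zero, V, Ne, Set.ncard_eq_zero (Vset_finite x)]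
  intro h
  have : (1 : ℕ) ∈ {v : ℕ | (∃ n : ℕ, 1 ≤ n ∧ Nat.totient n = v) ∧ (v : ℝ) ≤ x} :=
    ⟨⟨1, le_rfl, by simp⟩, by simpa using hx⟩
  rw [h] at this
  exact this

lemma pi_le_V (x : ℝ) : Nat.primeCounting ⌊x⌋₊ ≤ V x := by
  have h1 : Nat.primeCounting ⌊x⌋₊ = (Nat.primesLE ⌊x⌋₊).card := by
    simp
  rw [h1, V, ← Set.ncard_coe_finset]
  apply Set.ncard_le_ncard_of_injOn (fun p => p - 1) _ _ (Vset_finite x)
  · intro p hp
    simp only [Finset.mem_coe, Nat.mem_primesLE] at hp
    refine ⟨⟨p, hp.2.one_le, Nat.totient_prime hp.2⟩, ?_⟩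
    have h2 : (p : ℝ) ≤ x := by
      rcases le_or_gt 0 x with hx | hx
      · exact le_trans (by exact_mod_cast hp.1) (Nat.floor_le hx)
      · have : ⌊x⌋₊ = 0 := Nat.floor_of_nonpos hx.le
        have := hp.2.pos
        omega
    have h3 : ((p - 1 : ℕ) : ℝ) ≤ p := by exact_mod_cast Nat.sub_le p 1
    linarith
  · intro p hp q hq hpq
    simp only [Finset.mem_coe, Nat.mem_primesLE] at hp hq
    have := hp.2.pos
    have := hq.2.pos
    simp only at hpq
    omega

lemma V_le_V_sub_one_add_one (x : ℝ) : V x ≤ V (x - 1) + 1 := by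
  have hsub : {v : ℕ | (∃ n : ℕ, 1 ≤ n ∧ Nat.totient n = v) ∧ (v : ℝ) ≤ x} ⊆
      insert ⌊x⌋₊ {v : ℕ | (∃ n : ℕ, 1 ≤ n ∧ Nat.totient n = v) ∧ (v : ℝ) ≤ x - 1} := by
    rintro v ⟨h1, h2⟩
    by_cases h : (v : ℝ) ≤ x - 1
    · exact Set.mem_insert_of_mem _ ⟨h1, h⟩
    · rw [not_le] at h
      apply Set.mem_insert_iff.2
      left
      symm
      rw [Nat.floor_eq_iff (le_trans (Nat.cast_nonneg v) h2)]
      exact ⟨h2, by linarith⟩
  calc V x ≤ (insert ⌊x⌋₊ {v : ℕ | (∃ n : ℕ, 1 ≤ n ∧ Nat.totient n = v) ∧ (v : ℝ) ≤ x - 1}).ncard :=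
        Set.ncard_le_ncard hsub ((Vset_finite (x - 1)).insert _)
    _ ≤ V (x - 1) + 1 := Set.ncard_insert_le _ _

section soft
variable {W : ℝ → ℝ}

lemma tendsto_log_geom {c X0 : ℝ} (hc : 1 < c) (hX0 : 0 < X0)
    (hlog : Tendsto (fun x => log (W x) / log x) atTop (𝓝 1)) :
    Tendsto (fun k : ℕ => log (W (c ^ k * X0)) / k) atTop (𝓝 (log c)) := by
  have hu : Tendsto (fun k : ℕ => c ^ k * X0) atTop atTop :=
    (tendsto_pow_atTop_atTop_of_one_lt hc).atTop_mul_const hX0
  have h1 : Tendsto (fun k : ℕ => log (W (c ^ k * X0)) / log (c ^ k * X0)) atTop (𝓝 1) :=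
    hlog.comp hu
  have h2 : Tendsto (fun k : ℕ => log (c ^ k * X0) / k) atTop (𝓝 (log c)) := by
    have h3 : Tendsto (fun k : ℕ => log c + log X0 / k) atTop (𝓝 (log c + 0)) :=
      tendsto_const_nhds.add (tendsto_const_div_atTop_nhds_zero_nat _)
    rw [add_zero] at h3
    apply h3.congr'
    filter_upwards [eventually_gt_atTop 0] with k hk
    have hk' : (k : ℝ) ≠ 0 := by exact_mod_cast hk.ne'
    rw [log_mul (by positivity) hX0.ne', log_pow]
    field_simp
  have h4 := h1.mul h2
  rw [one_mul] at h4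
  apply h4.congr'
  have h5 : ∀ᶠ k : ℕ in atTop, 1 < c ^ k * X0 := hu.eventually (eventually_gt_atTop 1)
  filter_upwards [h5] with k hk
  have : log (c ^ k * X0) ≠ 0 := (log_pos hk).ne'
  field_simp

lemma le_of_forall_ratio_le {c c' X0 : ℝ} (hc : 1 < c) (hc' : 0 < c') (hX0 : 0 < X0)
    (hpos : ∀ x, X0 ≤ x → 0 < W x)
    (hlog : Tendsto (fun x => log (W x) / log x) atTop (𝓝 1))
    (h : ∀ x, X0 ≤ x → W (c * x) ≤ c' * W x) : c ≤ c' := by
  have hge : ∀ k : ℕ, X0 ≤ c ^ k * X0 := fun k =>
    le_mul_of_one_le_left hX0.le (one_le_pow₀ hc.le)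
  have hind : ∀ k : ℕ, W (c ^ k * X0) ≤ c' ^ k * W X0 := by
    intro k
    induction k with
    | zero => simp
    | succ k ih =>
      calc W (c ^ (k + 1) * X0) = W (c * (c ^ k * X0)) := by ring_nf
        _ ≤ c' * W (c ^ k * X0) := h _ (hge k)
        _ ≤ c' * (c' ^ k * W X0) := by gcongr
        _ = c' ^ (k + 1) * W X0 := by ring
  have h1 := tendsto_log_geom hc hX0 hlog
  have h2 : Tendsto (fun k : ℕ => log c' + log (W X0) / k) atTop (𝓝 (log c' + 0)) :=
    tendsto_const_nhds.add (tendsto_const_div_atTop_nhds_zero_nat _)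
  rw [add_zero] at h2
  have h3 : log c ≤ log c' := by
    apply le_of_tendsto_of_tendsto h1 h2
    filter_upwards [eventually_gt_atTop 0] with k hk
    have hk' : (0 : ℝ) < k := by exact_mod_cast hk
    have hW0 := hpos X0 le_rfl
    have h4 : log (W (c ^ k * X0)) ≤ log (c' ^ k * W X0) :=
      log_le_log (hpos _ (hge k)) (hind k)
    rw [log_mul (by positivity) hW0.ne', log_pow] at h4
    rw [div_le_iff₀ hk']
    have : (log c' + log (W X0) / k) * k = k * log c' + log (W X0) := by field_simp
    rw [this]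
    exact h4
  exact (log_le_log_iff (by linarith) hc').1 h3

lemma le_of_forall_le_ratio {c c' X0 : ℝ} (hc : 1 < c) (hc' : 0 < c') (hX0 : 0 < X0)
    (hpos : ∀ x, X0 ≤ x → 0 < W x)
    (hlog : Tendsto (fun x => log (W x) / log x) atTop (𝓝 1))
    (h : ∀ x, X0 ≤ x → c' * W x ≤ W (c * x)) : c' ≤ c := by
  have hge : ∀ k : ℕ, X0 ≤ c ^ k * X0 := fun k =>
    le_mul_of_one_le_left hX0.le (one_le_pow₀ hc.le)
  have hind : ∀ k : ℕ, c' ^ k * W X0 ≤ W (c ^ k * X0) := by
    intro k
    induction k with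
    | zero => simp
    | succ k ih =>
      calc c' ^ (k + 1) * W X0 = c' * (c' ^ k * W X0) := by ring
        _ ≤ c' * W (c ^ k * X0) := by gcongr
        _ ≤ W (c * (c ^ k * X0)) := h _ (hge k)
        _ = W (c ^ (k + 1) * X0) := by ring_nf
  have h1 := tendsto_log_geom hc hX0 hlog
  have h2 : Tendsto (fun k : ℕ => log c' + log (W X0) / k) atTop (𝓝 (log c' + 0)) :=
    tendsto_const_nhds.add (tendsto_const_div_atTop_nhds_zero_nat _)
  rw [add_zero] at h2
  have h3 : log c' ≤ log c := by
    apply le_of_tendsto_of_tendsto h2 h1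
    filter_upwards [eventually_gt_atTop 0] with k hk
    have hk' : (0 : ℝ) < k := by exact_mod_cast hk
    have hW0 := hpos X0 le_rfl
    have h4 : log (c' ^ k * W X0) ≤ log (W (c ^ k * X0)) :=
      log_le_log (by positivity) (hind k)
    rw [log_mul (by positivity) hW0.ne', log_pow] at h4
    rw [le_div_iff₀ hk']
    have : (log c' + log (W X0) / k) * k = k * log c' + log (W X0) := by field_simp
    rw [this]
    exact h4
  exact (log_le_log_iff hc' (by linarith)).1 h3

/-- soft cluster point lemma for continuous functions of growth `x^{1+o(1)}` -/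
lemma exists_ratio_near {c x0 : ℝ} (hc : 1 < c)
    (hpos : ∀ x, x0 ≤ x → 0 < W x) (hcont : Continuous W)
    (hlog : Tendsto (fun x => log (W x) / log x) atTop (𝓝 1)) {ε : ℝ} (hε : 0 < ε) (X : ℝ) :
    ∃ x, X ≤ x ∧ |W (c * x) / W x - c| < ε := by
  set X0 := max (max X x0) 1 with hX0
  have hX0pos : 0 < X0 := lt_of_lt_of_le one_pos (le_max_right _ _)
  have hX0X : X ≤ X0 := le_trans (le_max_left _ _) (le_max_left _ _)
  have hX0x0 : x0 ≤ X0 := le_trans (le_max_right _ _) (le_max_left _ _)
  have hpos' : ∀ x, X0 ≤ x → 0 < W x := fun x hx => hpos x (hX0x0.trans hx)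
  -- a point where the ratio exceeds c - ε
  have hB : ∃ x, X0 ≤ x ∧ c - ε < W (c * x) / W x := by
    by_contra hcon
    push Not at hcon
    rcases le_or_gt (c - ε) 0 with hle | hgt
    · have h1 := hcon X0 le_rfl
      have h2 : 0 < W (c * X0) / W X0 :=
        div_pos (hpos' _ (le_mul_of_one_le_left hX0pos.le hc.le)) (hpos' _ le_rfl)
      linarith
    · have := le_of_forall_ratio_le hc hgt hX0pos hpos' hlog (fun x hx => by
        have := hcon x hx
        rwa [div_le_iff₀ (hpos' x hx)] at this)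
      linarith
  obtain ⟨x2, hx2, hx2r⟩ := hB
  by_cases h2 : W (c * x2) / W x2 < c + ε
  · exact ⟨x2, hX0X.trans hx2, by rw [abs_lt]; constructor <;> linarith⟩
  rw [not_lt] at h2
  have hx2pos : 0 < x2 := lt_of_lt_of_le hX0pos hx2
  have hA : ∃ x, x2 ≤ x ∧ W (c * x) / W x < c + ε := by
    by_contra hcon
    push Not at hcon
    have := le_of_forall_le_ratio (c' := c + ε) hc (by linarith) hx2pos
      (fun x hx => hpos' x (hx2.trans hx)) hlog (fun x hx => by
        have := hcon x hx
        rwa [le_div_iff₀ (hpos' x (hx2.trans hx))] at this)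
    linarith
  obtain ⟨x3, hx3, hx3r⟩ := hA
  by_cases h3 : c - ε < W (c * x3) / W x3
  · exact ⟨x3, hX0X.trans (hx2.trans hx3), by rw [abs_lt]; constructor <;> linarith⟩
  rw [not_lt] at h3
  have hcontOn : ContinuousOn (fun x => W (c * x) / W x) (Set.Icc x2 x3) := by
    apply ContinuousOn.div
    · exact (hcont.comp (continuous_const.mul continuous_id)).continuousOn
    · exact hcont.continuousOn
    · intro x hx
      exact (hpos' x (hx2.trans hx.1)).ne'
  have hmem : c ∈ Set.Icc (W (c * x3) / W x3) (W (c * x2) / W x2) :=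
    ⟨by linarith, by linarith⟩
  obtain ⟨x, hx, hxc⟩ := intermediate_value_Icc' hx3 hcontOn hmem
  refine ⟨x, hX0X.trans (hx2.trans hx.1), ?_⟩
  simp only at hxc
  rw [hxc]
  simpa using hε

end soft


lemma tendsto_log_div_log_of_bounds {W : ℝ → ℝ} {A x1 : ℝ} (hA : 0 < A)
    (hlow : ∀ x, x1 ≤ x → x / (A * log x) ≤ W x) (hup : ∀ x, x1 ≤ x → W x ≤ x) :
    Tendsto (fun x => log (W x) / log x) atTop (𝓝 1) := by
  have h0 : Tendsto (fun x : ℝ => (log A + log (log x)) / log x) atTop (𝓝 0) := by
    have h1 : Tendsto (fun x : ℝ => log A / log x) atTop (𝓝 0) :=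
      tendsto_log_atTop.const_div_atTop _
    have h2 : Tendsto (fun y : ℝ => log y / y) atTop (𝓝 0) := by
      simpa using Real.tendsto_pow_log_div_mul_add_atTop 1 0 1 one_ne_zero
    have h3 : Tendsto (fun x : ℝ => log (log x) / log x) atTop (𝓝 0) := h2.comp tendsto_log_atTop
    have := h1.add h3
    rw [add_zero] at this
    exact this.congr (fun x => by rw [add_div])
  have hl : Tendsto (fun x : ℝ => 1 - (log A + log (log x)) / log x) atTop (𝓝 1) := by
    simpa using (tendsto_const_nhds (x := (1 : ℝ))).sub h0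
  apply tendsto_of_tendsto_of_tendsto_of_le_of_le' hl tendsto_const_nhds
  · filter_upwards [eventually_ge_atTop x1, eventually_gt_atTop (exp 1)] with x hx1 hx2
    have hxpos : 0 < x := lt_trans (exp_pos 1) hx2
    have hlogx : 1 < log x := by rwa [lt_log_iff_exp_lt hxpos]
    have hlogpos : 0 < log x := by linarith
    have h4 : log (x / (A * log x)) ≤ log (W x) := log_le_log (by positivity) (hlow x hx1)
    rw [log_div hxpos.ne' (by positivity), log_mul hA.ne' hlogpos.ne'] at h4
    rw [le_div_iff₀ hlogpos]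
    have : (1 - (log A + log (log x)) / log x) * log x = log x - (log A + log (log x)) := by
      field_simp
    rw [this]
    exact h4
  · filter_upwards [eventually_ge_atTop x1, eventually_gt_atTop (exp 1)] with x hx1 hx2
    have hxpos : 0 < x := lt_trans (exp_pos 1) hx2
    have hlogx : 1 < log x := by rwa [lt_log_iff_exp_lt hxpos]
    have hlogpos : 0 < log x := by linarith
    have hWpos : 0 < W x := lt_of_lt_of_le (by positivity) (hlow x hx1)
    rw [div_le_one hlogpos]
    exact log_le_log hWpos (hup x hx1)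

lemma V_lower {x : ℝ} (hx : 20 ≤ x) : x / (2 * log x) ≤ V x := by
  have h1 : ((x - 1) * log 2 - log (x + 2)) / log x ≤ Nat.primeCounting ⌊x⌋₊ :=
    Chebyshev.pi_ge' (by linarith)
  have h2 : (Nat.primeCounting ⌊x⌋₊ : ℝ) ≤ V x := by exact_mod_cast pi_le_V x
  have hlogpos : 0 < log x := log_pos (by linarith)
  have h3 : log (x + 2) ≤ log 16 + (x + 2) / 16 - 1 := by
    have := Real.log_le_sub_one_of_pos (x := (x + 2) / 16) (by positivity)
    rw [log_div (by positivity) (by norm_num)] at this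
    linarith
  have h4 : log 16 = 4 * log 2 := by
    rw [show (16 : ℝ) = 2 ^ 4 by norm_num, log_pow]; norm_num
  have h5 := Real.log_two_gt_d9
  have h6 := Real.log_two_lt_d9
  have h7 : x / 2 ≤ (x - 1) * log 2 - log (x + 2) := by
    rw [h4] at h3
    nlinarith
  calc x / (2 * log x) = (x / 2) / log x := by field_simp
    _ ≤ ((x - 1) * log 2 - log (x + 2)) / log x := by gcongr
    _ ≤ V x := h1.trans h2

lemma tendsto_logV : Tendsto (fun x => log (V x) / log x) atTop (𝓝 1) :=
  tendsto_log_div_log_of_bounds (A := 2) (x1 := 20) two_pos (fun _ hx => V_lower hx)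
    (fun _ hx => V_le (by linarith))

/-- moving average of `V`, a continuous substitute -/
noncomputable def Vt (x : ℝ) : ℝ := ∫ t in (x - 1)..x, (V t : ℝ)

lemma V_mono_real : Monotone (fun t : ℝ => (V t : ℝ)) := fun _ _ h => by
  simp only
  exact_mod_cast V_mono h

lemma V_intervalIntegrable (a b : ℝ) :
    IntervalIntegrable (fun t : ℝ => (V t : ℝ)) MeasureTheory.volume a b :=
  V_mono_real.intervalIntegrable

lemma Vt_le (x : ℝ) : Vt x ≤ V x := by
  have := intervalIntegral.integral_mono_on (a := x - 1) (b := x) (by linarith)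
    (V_intervalIntegrable _ _) (intervalIntegrable_const (c := (V x : ℝ)))
    (fun t ht => V_mono_real ht.2)
  simpa [Vt] using this

lemma le_Vt (x : ℝ) : (V (x - 1) : ℝ) ≤ Vt x := by
  have := intervalIntegral.integral_mono_on (a := x - 1) (b := x) (by linarith)
    (intervalIntegrable_const (c := (V (x - 1) : ℝ))) (V_intervalIntegrable _ _)
    (fun t ht => V_mono_real ht.1)
  simpa [Vt] using this

lemma Vt_continuous : Continuous Vt := by
  have h1 : Continuous (fun b => ∫ t in (0 : ℝ)..b, (V t : ℝ)) :=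
    intervalIntegral.continuous_primitive V_intervalIntegrable 0
  have h2 : Vt = fun x => (∫ t in (0 : ℝ)..x, (V t : ℝ)) - ∫ t in (0 : ℝ)..(x - 1), (V t : ℝ) := by
    funext x
    rw [intervalIntegral.integral_interval_sub_left (V_intervalIntegrable _ _)
      (V_intervalIntegrable _ _)]
    rfl
  rw [h2]
  exact h1.sub (h1.comp (continuous_id.sub continuous_const))

lemma tendsto_logVt : Tendsto (fun x => log (Vt x) / log x) atTop (𝓝 1) := by
  apply tendsto_log_div_log_of_bounds (A := 4) (x1 := 21) (by norm_num)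
  · intro x hx
    have h1 := V_lower (x := x - 1) (by linarith)
    have h2 : 0 < log (x - 1) := log_pos (by linarith)
    have h3 : log (x - 1) ≤ log x := log_le_log (by linarith) (by linarith)
    have h3' : 0 < log x := log_pos (by linarith)
    have h4 : x / (4 * log x) ≤ (x - 1) / (2 * log (x - 1)) := by
      rw [div_le_div_iff₀ (by positivity) (by positivity)]
      nlinarith
    exact h4.trans (h1.trans (le_Vt x))
  · intro x hx
    exact (Vt_le x).trans (V_le (by linarith))

lemma Vt_pos {x : ℝ} (hx : 2 ≤ x) : 0 < Vt x := by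
  have h1 : 1 ≤ V (x - 1) := one_le_V (by linarith)
  have h2 : (1 : ℝ) ≤ V (x - 1) := by exact_mod_cast h1
  linarith [le_Vt x]

lemma tendsto_Vt_atTop : Tendsto Vt atTop atTop := by
  -- from `V (x-1) ≥ π`, simplest: Vt x ≥ x / (4 log x) and log x ≤ sqrt-type bound
  have h : ∀ x : ℝ, 21 ≤ x → Real.sqrt x / 8 ≤ Vt x := by
    intro x hx
    have h1 := V_lower (x := x - 1) (by linarith)
    have h2 : 0 < log (x - 1) := log_pos (by linarith)
    have hs : 0 < Real.sqrt x := Real.sqrt_pos.2 (by linarith)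
    have h3 : log (x - 1) ≤ 2 * Real.sqrt x := by
      have h4 : log (x - 1) ≤ log x := log_le_log (by linarith) (by linarith)
      have h5 : log x = 2 * log (Real.sqrt x) := by
        rw [Real.log_sqrt (by linarith)]; ring
      have h6 := Real.log_le_sub_one_of_pos hs
      linarith
    have hsq : Real.sqrt x * Real.sqrt x = x := Real.mul_self_sqrt (by linarith)
    have h7 : Real.sqrt x / 8 ≤ (x - 1) / (2 * log (x - 1)) := by
      rw [div_le_div_iff₀ (by norm_num) (by positivity)]
      nlinarith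
    exact h7.trans (h1.trans (le_Vt x))
  apply tendsto_atTop_mono' atTop _
    ((Real.tendsto_sqrt_atTop).atTop_div_const (by norm_num : (0 : ℝ) < 8))
  filter_upwards [eventually_ge_atTop 21] with x hx using h x hx


theorem ratio_cluster {c : ℝ} (hc : 1 < c) {ε : ℝ} (hε : 0 < ε) (X : ℝ) :
    ∃ x, X ≤ x ∧ |(V (c * x) : ℝ) / V x - c| < ε := by
  obtain ⟨X1, hX1⟩ := (tendsto_atTop.1 tendsto_Vt_atTop (2 * (c + 1) / ε + 1)).exists_forall_of_atTop
  obtain ⟨x, hx, hxr⟩ := exists_ratio_near (W := Vt) (x0 := 2) hc (fun x hx => Vt_pos hx)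
    Vt_continuous tendsto_logVt (half_pos hε) (max (max X X1) 2)
  have hxX : X ≤ x := le_trans (le_trans (le_max_left _ _) (le_max_left _ _)) hx
  have hxX1 : X1 ≤ x := le_trans (le_trans (le_max_right _ _) (le_max_left _ _)) hx
  have hx2 : 2 ≤ x := le_trans (le_max_right _ _) hx
  have hbig : 2 * (c + 1) / ε + 1 ≤ Vt x := hX1 x hxX1
  have hVtpos : 0 < Vt x := Vt_pos hx2
  have hbig' : 2 * (c + 1) < ε * Vt x := by
    have : 2 * (c + 1) / ε < Vt x := by linarith
    rw [div_lt_iff₀ hε] at this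
    linarith
  have hVx1 : Vt x ≤ V x := Vt_le x
  have hVx2 : (V x : ℝ) ≤ Vt x + 1 := by
    have h1 : (V x : ℝ) ≤ V (x - 1) + 1 := by exact_mod_cast V_le_V_sub_one_add_one x
    linarith [le_Vt x]
  have hVc1 : Vt (c * x) ≤ V (c * x) := Vt_le _
  have hVc2 : (V (c * x) : ℝ) ≤ Vt (c * x) + 1 := by
    have h1 : (V (c * x) : ℝ) ≤ V (c * x - 1) + 1 := by
      exact_mod_cast V_le_V_sub_one_add_one (c * x)
    linarith [le_Vt (c * x)]
  have hVpos : (0 : ℝ) < V x := lt_of_lt_of_le hVtpos hVx1
  rw [abs_lt] at hxr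
  obtain ⟨hr1, hr2⟩ := hxr
  have hr1' : (c - ε / 2) * Vt x < Vt (c * x) := by
    have : c - ε / 2 < Vt (c * x) / Vt x := by linarith
    rwa [lt_div_iff₀ hVtpos] at this
  have hr2' : Vt (c * x) < (c + ε / 2) * Vt x := by
    have : Vt (c * x) / Vt x < c + ε / 2 := by linarith
    rwa [div_lt_iff₀ hVtpos] at this
  refine ⟨x, hxX, ?_⟩
  rw [abs_lt]
  constructor
  · have : c - ε < (V (c * x) : ℝ) / V x := by
      rw [lt_div_iff₀ hVpos]
      rcases le_or_gt (c - ε) 0 with hneg | hpos
      · have h0 : 0 < Vt (c * x) := Vt_pos (by nlinarith)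
        nlinarith
      · nlinarith
    linarith
  · have : (V (c * x) : ℝ) / V x < c + ε := by
      rw [div_lt_iff₀ hVpos]
      nlinarith
    linarith


/-- `g x = log (V x)` -/
lemma logV_mono : Monotone (fun x : ℝ => log (V x)) := by
  intro x y hxy
  simp only
  rcases Nat.eq_zero_or_pos (V x) with h0 | hpos
  · rw [h0]; simpa using Real.log_natCast_nonneg (V y)
  · exact log_le_log (by exact_mod_cast hpos) (by exact_mod_cast V_mono hxy)

lemma F_integrable {a b : ℝ} (ha : 0 < a) (hb : 0 < b) :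
    IntervalIntegrable (fun u : ℝ => log (V u) / u) MeasureTheory.volume a b := by
  have h1 : IntervalIntegrable (fun u : ℝ => log (V u)) MeasureTheory.volume a b :=
    logV_mono.intervalIntegrable
  have h2 : ContinuousOn (fun u : ℝ => u⁻¹) (Set.uIcc a b) := by
    apply ContinuousOn.inv₀ continuousOn_id
    intro u hu
    have : 0 < u := lt_of_lt_of_le (lt_min ha hb) hu.1
    exact this.ne'
  exact (h1.mul_continuousOn h2).congr (fun u _ => by simp only [div_eq_mul_inv])

lemma logavg_identity {c X : ℝ} (hc : 1 < c) (hX : 1 ≤ X) :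
    ∫ x in (1 : ℝ)..X, log ((V (c * x) : ℝ) / V x) / x =
      (∫ u in X..(c * X), log (V u) / u) - ∫ u in (1 : ℝ)..c, log (V u) / u := by
  have hcpos : 0 < c := by linarith
  have hXpos : 0 < X := by linarith
  have h1 : ∫ x in (1 : ℝ)..X, log ((V (c * x) : ℝ) / V x) / x =
      ∫ x in (1 : ℝ)..X, (c * (log (V (c * x)) / (c * x)) - log (V x) / x) := by
    apply intervalIntegral.integral_congr
    intro x hx
    rw [Set.uIcc_of_le hX] at hx
    have hx1 : 1 ≤ x := hx.1
    have hxpos : 0 < x := by linarith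
    have hv1 : (0 : ℝ) < V x := by exact_mod_cast one_le_V hx1
    have hv2 : (0 : ℝ) < V (c * x) := by
      have : 1 ≤ c * x := by nlinarith
      exact_mod_cast one_le_V this
    simp only
    rw [log_div hv2.ne' hv1.ne']
    field_simp
  have hF2 : IntervalIntegrable (fun x : ℝ => log (V x) / x) MeasureTheory.volume 1 X :=
    F_integrable one_pos hXpos
  have hF1 : IntervalIntegrable (fun x : ℝ => c * (log (V (c * x)) / (c * x)))
      MeasureTheory.volume 1 X := by
    have := (F_integrable (a := c * 1) (b := c * X) (by positivity) (by positivity)).comp_mul_left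
      (c := c)
    have h3 := this.const_mul c
    rwa [mul_div_cancel_left₀ _ hcpos.ne', mul_div_cancel_left₀ _ hcpos.ne'] at h3
  rw [h1, intervalIntegral.integral_sub hF1 hF2, intervalIntegral.integral_const_mul,
    intervalIntegral.integral_comp_mul_left (fun u => log (V u) / u) hcpos.ne', mul_one,
    smul_eq_mul, ← mul_assoc, mul_inv_cancel₀ hcpos.ne', one_mul]
  rw [intervalIntegral.integral_interval_sub_interval_comm
    (F_integrable hcpos (by positivity)) (F_integrable one_pos hXpos)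
    (F_integrable hcpos one_pos)]
  rw [intervalIntegral.integral_symm 1 c, intervalIntegral.integral_symm X (c * X)]
  ring


lemma integral_const_div {K a b : ℝ} (ha : 0 < a) (hb : 0 < b) :
    ∫ u in a..b, K / u = K * log (b / a) := by
  simp only [div_eq_mul_inv]
  rw [intervalIntegral.integral_const_mul, integral_inv_of_pos ha hb, div_eq_mul_inv]

lemma const_div_integrable {K a b : ℝ} (ha : 0 < a) (hb : 0 < b) :
    IntervalIntegrable (fun u : ℝ => K / u) MeasureTheory.volume a b := by
  apply ContinuousOn.intervalIntegrable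
  apply ContinuousOn.div continuousOn_const continuousOn_id
  intro u hu
  have : 0 < u := lt_of_lt_of_le (lt_min ha hb) hu.1
  exact this.ne'

lemma block_bounds {c X : ℝ} (hc : 1 < c) (hX : 1 ≤ X) :
    log (V X) * log c ≤ ∫ u in X..(c * X), log (V u) / u ∧
    ∫ u in X..(c * X), log (V u) / u ≤ log (V (c * X)) * log c := by
  have hXpos : 0 < X := by linarith
  have hcX : 0 < c * X := by positivity
  have hle : X ≤ c * X := by nlinarith
  have hlogc : log (c * X / X) = log c := by
    rw [mul_div_assoc, div_self hXpos.ne', mul_one]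
  constructor
  · rw [← hlogc, ← integral_const_div hXpos hcX]
    apply intervalIntegral.integral_mono_on hle (const_div_integrable hXpos hcX)
      (F_integrable hXpos hcX)
    intro u hu
    have hu0 : 0 < u := lt_of_lt_of_le hXpos hu.1
    exact div_le_div_of_nonneg_right (logV_mono hu.1) hu0.le
  · rw [← hlogc, ← integral_const_div hXpos hcX]
    apply intervalIntegral.integral_mono_on hle (F_integrable hXpos hcX)
      (const_div_integrable hXpos hcX)
    intro u hu
    have hu0 : 0 < u := lt_of_lt_of_le hXpos hu.1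
    exact div_le_div_of_nonneg_right (logV_mono hu.2) hu0.le

theorem log_average {c : ℝ} (hc : 1 < c) :
    Tendsto (fun X : ℝ => (∫ x in (1 : ℝ)..X, log ((V (c * x) : ℝ) / V x) / x) / log X)
      atTop (𝓝 (log c)) := by
  have hcpos : 0 < c := by linarith
  set K := ∫ u in (1 : ℝ)..c, log (V u) / u with hK
  have hK0 : Tendsto (fun X : ℝ => K / log X) atTop (𝓝 0) := tendsto_log_atTop.const_div_atTop _
  have hlow : Tendsto (fun X : ℝ => log (V X) / log X * log c - K / log X) atTop (𝓝 (log c)) := by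
    simpa using (tendsto_logV.mul_const (log c)).sub hK0
  have hcX : Tendsto (fun X : ℝ => c * X) atTop atTop := tendsto_id.const_mul_atTop hcpos
  have h1 : Tendsto (fun X : ℝ => log (V (c * X)) / log (c * X)) atTop (𝓝 1) :=
    tendsto_logV.comp hcX
  have h2 : Tendsto (fun X : ℝ => log (c * X) / log X) atTop (𝓝 1) := by
    have h3 : Tendsto (fun X : ℝ => log c / log X + 1) atTop (𝓝 (0 + 1)) :=
      (tendsto_log_atTop.const_div_atTop _).add tendsto_const_nhds
    rw [zero_add] at h3
    apply h3.congr'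
    filter_upwards [eventually_gt_atTop 1] with X hX
    have : 0 < log X := log_pos hX
    rw [log_mul hcpos.ne' (by linarith)]
    field_simp
  have hup : Tendsto (fun X : ℝ => log (V (c * X)) / log (c * X) * (log (c * X) / log X) * log c
      - K / log X) atTop (𝓝 (log c)) := by
    simpa using ((h1.mul h2).mul_const (log c)).sub hK0
  apply tendsto_of_tendsto_of_tendsto_of_le_of_le' hlow hup
  · filter_upwards [eventually_gt_atTop 1] with X hX
    have hlogX : 0 < log X := log_pos hX
    rw [logavg_identity hc hX.le, le_div_iff₀ hlogX]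
    have := (block_bounds hc hX.le).1
    have e : (log (V X) / log X * log c - K / log X) * log X = log (V X) * log c - K := by
      field_simp
    rw [e]
    linarith
  · filter_upwards [eventually_gt_atTop 1] with X hX
    have hlogX : 0 < log X := log_pos hX
    have hlogcX : 0 < log (c * X) := log_pos (by nlinarith)
    rw [logavg_identity hc hX.le, div_le_iff₀ hlogX]
    have := (block_bounds hc hX.le).2
    have e : (log (V (c * X)) / log (c * X) * (log (c * X) / log X) * log c - K / log X) * log X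
        = log (V (c * X)) * log c - K := by
      field_simp
    rw [e]
    linarith

end Vale.Agent.Lib.P031
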